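import Vale.Agent.P004X.P004G.D
import Vale.Agent.P004X.P004G.I1
import Vale.Agent.P004X.P004G.H3
import Vale.Agent.P004X.P004G.H4
import Vale.Agent.P004X.P004G.H5
import Vale.Agent.P004X.P004G.F
import Vale.Agent.P004X.P004G.G
import Vale.Agent.P004X.P004G.H3.Edge3
import Vale.Agent.P004X.P004G.H3.Tw01
import Vale.Agent.P004X.P004G.H353.Js
import Vale.Agent.P004X.P004G.H353.Wts
import Vale.Agent.P004X.P004G.H353.Sep2
import Vale.Agent.P004X.P004G.H253.Tw9
import Vale.Agent.P004X.P004G.H628.Tw2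
import Vale.Agent.P004X.P004G.H628.Poly
import Vale.Agent.P004X.P004G.H128.Pass3
import Vale.Agent.P004X.P004G.H293.R2
import Vale.Agent.P004X.P004G.H293.R3
import Vale.Agent.P004X.P004G.H293.R4
import Vale.Agent.P004X.P004G.H394.Moll4
import Vale.Agent.P004X.P004G.H394.Wf
import Vale.Agent.P004X.P004G.H503.Block
import Vale.Agent.P004.H394.All3

/-!
# P004G: assembly of the modules
-/

namespace P004G

variable [Crv]

theorem full (hF : StFold) : StFull :=
  H3.pfFull_of pfCoef (pfPair (pfPois P004.pfTw)) P004.pfKer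
    (pfDecomp pfCoef hF P004.pfDiv)
    (pfAj (pfStSep pfCoef P004.pfKer) (pfConv pfCoef P004.pfDiv) (pfStFrac pfCoef) P004.pfDiv)
    (pfA0 pfCoef P004.pfDiv) (pfTail P004.pfKer) P004.pfDiv

theorem tw2 (hFull : StFull) : StTw2 :=
  pfTw2 pfCoef (Tw.twL (pfSep2 pfCoef P004.pfKer) (pfConv pfCoef P004.pfDiv) (pfStFrac pfCoef)
    (Tw.pfWts pfCoef P004.pfDiv) (Tw.pfJs hFull P004.pfDiv))

theorem moll (hFull : StFull) : StMoll :=
  have hF : P004.StFour := P004.pfFour
  pfMoll pfCoef P004.pfDiv pfTw0 pfTw1 (tw2 hFull) (pfPass pfCoef) (pfPassN pfCoef)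
    (pfLim pfCoef) (pfLN pfCoef) (H293.pfR2 pfCoef) (H293.pfR3 pfCoef) (H293.pfR4 pfCoef) pfPoly
    (P004.Moll.repA hF) (P004.Moll.repB hF) (P004.Moll.repC hF)

theorem block (hF : StFold) (hV : StVan2) : StBlock :=
  pfBlock (full hF) hV pfWf (moll (full hF))

end P004G
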